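import Vale.Agent.P014Y.F.Cn.Gen
import Vale.Agent.P014Y.F.Pt.Kd
import Vale.Agent.P004F.Cn.Bas
import Vale.Agent.P004F.Ra.Lv

/-! # P014Y, row CNT (port of P004F; helper15) -/

set_option linter.all false

open NumberField Matrix PowerSeries
open scoped Classical Pointwise

noncomputable section

namespace Vale.Agent.P014Y.F.Cn

open Vale.Agent.P022 Vale.Agent.P022K Vale.Agent.P014U
open Vale.Agent.P004K (RC1 RC2 Hc)
open Vale.Agent.P027M.S (Inert)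
open Vale.Agent.P022D.W (dec inP_le_dec phi_mem)
open Vale.Agent.P022E.GW (Ov Fb)
open P004F.Pr (ac ac_add ac_zero Zs)
open P004F.Cn.Gx

variable [Pp] {e : Crv} (b : Fld e) {J n c c' l : ℕ} {χ : GQ → ℕ} {P : Ideal (𝓞 Qb)} {g : GQ}

/-- the residual representation -/
abbrev rb (e : Crv) (g : GQ) : M2 (ZMod pp) := (e.r g).map PadicInt.toZMod

theorem rb_mul (e : Crv) (g h : GQ) : rb e (g * h) = rb e g * rb e h := by
  rw [rb, map_mul, Matrix.map_mul]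

theorem rb_of (h : e.r g = 1) : rb e g = 1 := by
  rw [rb, h, Matrix.map_one _ (map_zero _) (map_one _)]

theorem rb_det (e : Crv) (g : GQ) : (rb e g).det ≠ 0 :=
  left_ne_zero_of_mul_eq_one (b := (rb e g⁻¹).det) (by
    rw [← det_mul, ← rb_mul, mul_inv_cancel, rb_of (map_one _), det_one])

theorem rb_fb (o : Ov l P) (h : l ≠ pp) (f : Fb l P g) : (rb e g).det = l := by
  rw [← map_natCast (PadicInt.toZMod (p := pp)), ← e.det_fb o h f, RingHom.map_det]; rfl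

theorem ab_eq (J : ℕ) (χ : GQ → ℕ) (g : GQ) :
    b.ab J χ g = (1 + tt J) ^ χ g • (rb e g).map (k0 J) := by
  rw [Fld.ab, map_add, map_one]; rfl

theorem ab_π (h : 0 < J) (χ : GQ → ℕ) (g : GQ) : (b.ab J χ g).map (π h) = rb e g := by
  ext i j
  simp only [ab_eq, map_apply, Matrix.smul_apply, smul_eq_mul, map_mul, map_pow, map_add, map_one,
    π_tt, π_k0, add_zero, one_pow, one_mul]

theorem ab_of (h : rb e g = 1) : b.ab J χ g = (1 + tt J) ^ χ g • 1 := by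
  rw [ab_eq, h, Matrix.map_one _ (map_zero _) (map_one _)]

theorem ab_one (hJ : J ≤ pp ^ n) (h : rb e g = 1) (h' : pp ^ n ∣ χ g) : b.ab J χ g = 1 := by
  rw [ab_of b h, tt_one hJ h', one_smul]

/-- the ring class field of conductor `c` is unramified outside `c` -/
theorem hc_inert (h2 : RC2) (c0 : 0 < c) (o : Ov l P) (hl : ¬l ∣ c) (hg : g ∈ b.Γ)
    (i : Inert P g) : g ∈ Hc b.j c := P004F.Ra.unr_hc h2 b.iq c0 o hl hg i

variable {b}

theorem chi_inert (h2 : RC2) (A : b.Ad n c χ) (c0 : 0 < c) (o : Ov l P) (hl : ¬l ∣ c)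
    (hg : g ∈ b.Γ) (i : Inert P g) : pp ^ n ∣ χ g := A.ker g (hc_inert b h2 c0 o hl hg i)

theorem mem_T (c0 : 0 < c) (hl : l.Prime) : l ∈ b.T c ↔ l ∈ e.S ∨ l ∣ c := by
  simp [Fld.T, hl, c0.ne']

theorem ab_inert (h2 : RC2) (A : b.Ad n c χ) (c0 : 0 < c) (hJ : J ≤ pp ^ n) (o : Ov l P)
    (hl : l ∉ b.T c) (hg : g ∈ b.Γ) (i : Inert P g) : b.ab J χ g = 1 := by
  rw [mem_T c0 o.1, not_or] at hl
  exact ab_one b hJ (rb_of (e.r_inert o hl.1 i)) (chi_inert h2 A c0 o hl.2 hg i)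

theorem T_mono (c0 : 0 < c') (h : c ∣ c') : b.T c ⊆ b.T c' :=
  Finset.union_subset_union_right (Nat.primeFactors_mono h c0.ne')

theorem T_two (c : ℕ) : 2 ∈ b.T c := Finset.mem_union_left _ (List.mem_toFinset.2 e.two)

theorem T_pm (c : ℕ) : pp ∈ b.T c := Finset.mem_union_left _ (List.mem_toFinset.2 e.pm)

theorem T_pr (h : l ∈ b.T c) : l.Prime := (Finset.mem_union.1 h).elim
  (fun a => (e.ov l (List.mem_toFinset.1 a)).1) Nat.prime_of_mem_primeFactors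

theorem gd (h1 : RC1) (h2 : RC2) (A : b.Ad n c χ) (c0 : 0 < c') (hc : c ∣ c') (hJ : J ≤ pp ^ n) :
    Gd b.Γ (b.T c') (b.ab J χ) := by
  have G := P004R.Lx.gd (R := ZMod 2) b.kd (T_two (b := b) c') (fun l => T_pr) (χ := fun _ => 1) rfl
    (fun _ _ _ _ => (mul_one _).symm) ⟨⊤, isOpen_univ, fun _ _ => rfl⟩ fun _ _ _ => rfl
  have c1 := Nat.pos_of_dvd_of_pos hc c0
  refine ⟨⟨G.opn, G.idx, G.cx, G.two, G.pr, ab_one b hJ (rb_of (map_one _)) (A.ker 1 (one_mem _)),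
    fun g a h a' => ?_, ⟨Hc b.j c ⊓ e.rep.Kn 1, (h1 _ b.j b.iq c c1).2.1.inter (e.rep.Kn_open 1),
      fun w _ m => ab_one b hJ (e.tr_one.1 m.2) (A.ker w m.1)⟩,
    fun g a ⟨l, m, Q, o, i⟩ => ab_inert h2 A c1 hJ o (fun k => m (T_mono c0 hc k)) a i⟩, T_pm c'⟩
  rw [ab_eq, ab_eq, ab_eq, tt_mod hJ (A.add g a h a'), rb_mul, Matrix.map_mul, pow_add,
    P004F.Cn.sm2]

open Mo in
theorem mono {e : Crv} (b : Fld e) {J₀ J : ℕ} (c : ℕ) (χ : GQ → ℕ) (h : J₀ ≤ J)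
    (f : (b.Z0 J c χ).Finite) : Nat.card (b.Z0 J₀ c χ) ≤ Nat.card (b.Z0 J c χ) := by
  obtain ⟨k, rfl⟩ := Nat.exists_eq_add_of_le' h
  have := f.to_subtype
  have z : ∀ {y : Fin 2 → Rb J₀}, y = 0 → sh J₀ k ∘ y = 0 := fun e => by
    rw [e]; exact funext fun _ => map_zero _
  have a : ∀ J g i j, b.ab J χ g i j =
      Ideal.Quotient.mk _ ((1 + X) ^ χ g * C (PadicInt.toZMod (e.r g i j))) := fun J g i j => by
    rw [map_mul, map_pow]; rfl
  refine Nat.card_le_card_of_injective (fun x => ⟨fun g => sh J₀ k ∘ x.1 g, ⟨fun g m j n => ?_,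
    fun g m => z (x.2.1.out g m), x.2.1.lc.imp fun W p => ⟨p.1, fun w m => z (p.2 w m)⟩,
    fun g m => z (x.2.1.unr g m)⟩, fun g m => z (x.2.2 g m)⟩) fun x y e => Subtype.ext
      (funext fun g => funext fun i => sh_inj (congrFun (congrFun (Subtype.mk.inj e) g) i))
  rw [x.2.1.coc g m j n]
  funext i
  simp only [Function.comp, Pi.add_apply, ac, map_add, map_sum, smul_eq_mul, a, sh_mul]

/-- **step one** -/
theorem one (r1 : RC1) (r2 : RC2) (hp : PRESN) {e : Crv} (b : Fld e)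
    {m n c q v B J : ℕ} {χ : GQ → ℕ} (t : b.Tw m n c χ) (x : b.Xq c χ q v) (hJ : J ≤ pp ^ n)
    (hB : B + 4 * pp ^ v < J) : (b.Z0 J c χ).Finite ∧ (Nat.card (b.Z0 J c χ) ≤ pp ^ B →
      Nat.card (b.Z0 J (c * q) χ) = Nat.card (b.Z0 J c χ) * pp ^ (4 * pp ^ v)) := by
  have J0 : 0 < J := by omega
  have := loc J0
  have c0 : 0 < c := one_pos.trans t.one
  have hT : ∀ l, l ∈ b.T (c * q) ↔ l ∈ b.T c ∨ l = q := fun l => by
    simp only [Fld.T, Nat.primeFactors_mul c0.ne' x.pr.ne_zero, x.pr.primeFactors, Finset.mem_union,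
      Finset.mem_singleton, or_assoc]
  have mS : ∀ {s}, s ∈ e.S → s ∈ b.T c := fun k =>
    Finset.mem_union_left _ (List.mem_toFinset.2 k)
  have q2 : q ≠ pp := fun k => x.out (k ▸ mS e.pm)
  obtain ⟨P, o⟩ := P004R.Mu.ex_pl x.pr
  obtain ⟨φ, hφ⟩ := P022D.W.exists_phi x.pr o.2.1 o.2.2
  obtain ⟨f, k⟩ := one0 hp (B := B) (e := pp ^ v) (π J0) (gd r1 r2 t.toAd (mul_pos c0 x.pr.pos)
    (dvd_mul_right c q) hJ) (e.ov pp e.pm) (b.le pp e.pm) b.c_out x.pr q2 (by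
      rw [← map_natCast (k0 J), ← rb_fb (e := e) o q2 hφ, show rb e φ = 1 from
        x.res P o φ (phi_mem o.1 o.2.1 hφ), det_one, map_one]) hT x.out x.spl
    (fun P o g i => ab_inert r2 t.toAd c0 hJ o x.out (x.spl P o (inP_le_dec i)) i)
    (fun P o g i => (one_add_pow (x.val P o g i).1 (x.val P o g i).2).imp fun ε k => ⟨k.1, by
      rw [ab_of b (x.res P o g (phi_mem o.1 o.2.1 i)), ← k.2, sub_smul, one_smul]⟩)
    (e.aux.imp fun s k => ⟨mS k.1, k.2.1, _, e.ov s k.1, b.le s k.1, fun g i =>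
      (ab_π b J0 χ g).trans (k.2.2 g i)⟩) hB
  exact ⟨f.subset fun y ⟨Y, y0⟩ => ⟨⟨Y.coc, Y.out, Y.lc, fun j ⟨l, n, i⟩ =>
    Y.unr j ⟨l, fun m => n ((hT l).2 (.inl m)), i⟩⟩, y0⟩, k⟩

theorem two (hp : PRESN) (hu : UNI) (h1 : RC1) (h2 : RC2) {e : Crv} {b : Fld e}
    {m n c : ℕ} {χ : GQ → ℕ} {q v B J : ℕ} (tw : b.Tw m n c χ) (xq : b.Xq c χ q v) (hJ : J ≤ pp ^ n)
    (hB : B < J) (h : Nat.card (b.Z0 J (c * q) χ) ≤ pp ^ B) :
    Nat.card (b.Z1 J (c * q) χ) = Nat.card (b.Z0 J (c * q) χ) := by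
  have J0 : 0 < J := by omega
  have := loc J0
  have := fin J
  have c0 : 0 < c := one_pos.trans tw.one
  have c1 : 0 < c * q := mul_pos c0 xq.pr.pos
  have G := gd h1 h2 tw.toAd c1 (dvd_mul_right c q) hJ
  have hS : ∀ p : e.σ, (p : ℕ) ∈ e.S := fun p =>
    List.mem_toFinset.1 (Finset.mem_filter.1 p.2).1
  have n2 : ∀ p : e.σ, (p : ℕ) ≠ pp := fun p => (Finset.mem_filter.1 p.2).2.1
  have ai : ∀ (p : e.σ) g, Inert (e.P p) g → b.ab J χ g = (rb e g).map (k0 J) := fun p g i => by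
    rw [ab_eq, tt_one hJ (chi_inert h2 tw.toAd c0 (e.ov p (hS p)) (fun d => (tw.gp p
      (Nat.mem_primeFactors.2 ⟨(e.ov p (hS p)).1, d, c0.ne'⟩)).out (hS p))
      (b.le p (hS p) (inP_le_dec i)) i), one_smul]
  have un : ∀ (p : e.σ) g, Inert (e.P p) g → (rb e g - 1) ^ 2 = 0 := fun p g i => by
    have := congrArg (PadicInt.toZMod (p := pp)).mapMatrix (hu e p p.2 g i).1
    simp only [map_pow, map_sub, map_one, map_zero] at this
    exact this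
  have up : ∀ (p : e.σ) g, Inert (e.P p) g → rb e g ^ pp ^ 1 = 1 := fun p g i => by
    rw [← add_sub_cancel 1 (rb e g), un_pow ((pow_two _).symm.trans (un p g i)), pow_one,
      ZMod.natCast_self, zero_smul, add_zero]
  have tp : ∀ p : e.σ, Tp b.Γ (b.ab J χ) p (e.P p) (b.φ p) (e.τ p) := fun p =>
    ⟨n2 p, e.ov p (hS p), b.ch.frb p (hS p), e.gn p (hS p) (n2 p), b.le p (hS p), fun g i => ⟨1, by
      rw [ai p g i]
      exact (map_pow (k0 J).mapMatrix _ _).symm.trans (by rw [up p g i, map_one])⟩⟩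
  have cm : ∀ p : e.σ, rb e (b.φ p) * rb e (e.τ p) = rb e (e.τ p) ^ (p : ℕ) * rb e (b.φ p) := fun p => by
    simpa only [pow_one] using (X4F.Lt.Pl.str (Γ := ⊤) (f := 1) (σ := rb e) ⟨(tp p).ov, n2 p, one_pos,
      (tp p).fb, (tp p).gn, fun _ _ => trivial, fun i => iff_of_true trivial (one_dvd i), isOpen_univ⟩
      ⟨rb_of (map_one _), fun g _ h _ => rb_mul e g h, ⟨_, e.rep.Kn_open 1, fun w _ m => e.tr_one.1 m⟩,
        fun g i => ⟨1, up p g i⟩⟩).1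
  have u1 : ∀ k : ℕ, π J0 ((1 + tt J) ^ k) = 1 := fun k => by
    rw [map_pow, map_add, map_one, π_tt, add_zero, one_pow]
  obtain ⟨P, o⟩ := P004R.Mu.ex_pl xq.pr
  obtain ⟨g, r, Q, w, F, hc, bij, hw⟩ := gen hp (π J0) (two0 J) G (e.ov pp e.pm) (b.le pp e.pm)
    (fun p : e.σ => p) (fun p => e.P p) (fun p => b.φ p) (fun p => e.τ p)
    (fun p => (mem_T c1 (tp p).ov.1).2 (.inl (hS p))) tp
    (fun i j g _ k => Subtype.ext (GW.Pl.ov_uniq (GW.ov_smul (tp i).ov g) (k ▸ (tp j).ov)))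
    ⟨q, (mem_T c1 xq.pr).2 (.inr (dvd_mul_left q c)), fun k => xq.out (k ▸ T_pm c), P, o, xq.spl P o,
      fun g a => (ab_π b J0 χ g).trans (xq.res P o g a),
      fun p k => xq.out ((mem_T c0 xq.pr).2 (.inl (k ▸ hS p)))⟩
  have od : ∀ p : e.σ, ((p : ℕ) : ZMod pp) ≠ 0 := fun p k => Dr.nd_pp (tp p).ov (n2 p)
    ((ZMod.natCast_eq_zero_iff _ _).1 k)
  have e0 := Nat.card_congr bij.equiv
  have nd : ∀ (p : e.σ) x, Nt (b.ab J χ (b.φ p)) (b.ab J χ (e.τ p)) p *ᵥ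
      Sum.elim ((b.ab J χ (b.φ p) - 1) *ᵥ x) ((b.ab J χ (e.τ p) - 1) *ᵥ x) = 0 := fun p x => by
    obtain ⟨E, -, H, H', -, -, k2, k3, -⟩ := ex_loc J0 (od p) (u1 (χ (b.φ p))) (un p _ (tp p).gn.1)
      (rb_fb (tp p).ov (n2 p) (tp p).fb) (cm p)
    rw [ai p _ (tp p).gn.1, ab_eq, ← fromRows_mulVec, mulVec_mulVec, k3, Matrix.mul_assoc, k2,
      fromCols_mul_fromRows, zero_mul, mul_zero, add_zero, zero_mulVec]
  refine .trans ?_ ((stp2 J0 Q w _ _ _ hc od (fun p => ⟨_, _, _, ab_eq b J χ _, ai p _ (tp p).gn.1,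
    u1 _, un p _ (tp p).gn.1, rb_fb (tp p).ov (n2 p) (tp p).fb, cm p⟩)
    (e0.trans_lt (h.trans_lt (Nat.pow_lt_pow_right one_lt hB)))).trans e0)
  have k : ∀ z : (Fin g → Rb J) × (e.σ → Fin 2 → Rb J), (∀ p, w p *ᵥ z.1 = Sum.elim
      ((b.ab J χ (b.φ p) - 1) *ᵥ z.2 p) ((b.ab J χ (e.τ p) - 1) *ᵥ z.2 p)) →
      ∀ p : e.σ, (Nt (b.ab J χ (b.φ p)) (b.ab J χ (e.τ p)) p * w p) *ᵥ z.1 = 0 := fun z a p => by
    rw [← mulVec_mulVec, a, nd]
  refine (Nat.card_congr (Set.BijOn.equiv (fun z => (F z.1, z.2)) ⟨fun z a => ?_, fun z a z' a' k' =>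
    Prod.ext (bij.2.1 ⟨a.1, k z a.2⟩ ⟨a'.1, k z' a'.2⟩ (Prod.mk.inj k').1) (Prod.mk.inj k').2,
    fun x a => ?_⟩)).symm
  · obtain ⟨X, z0⟩ := bij.1 (x := z.1) ⟨a.1, k z a.2⟩
    refine ⟨X, fun g i j => (congrFun (z0 g i) j).trans (smul_zero _).symm, fun p => ?_⟩
    have := (hw z.1 a.1 (k z a.2) p).symm.trans (a.2 p)
    exact (tp p).det2 (two0 J) G X (funext fun i => congrFun this (.inl i))
      (funext fun i => congrFun this (.inr i))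
  · obtain ⟨y, a', k'⟩ := @bij.2.2 x.1 ⟨a.toCc, fun g i => funext fun j =>
      (a.sv g i j).trans (smul_zero _)⟩
    exact ⟨(y, x.2), ⟨a'.1, fun p => by
      rw [hw y a'.1 a'.2 p, k', a.sp p _ (tp p).mφ, a.sp p _ (tp p).mτ]; rfl⟩, Prod.ext k' rfl⟩

/-- **row CNT** -/
theorem cnt (hp : PRESN) (hu : UNI) (r1 : RC1) (r2 : RC2) : CNT := by
  intro e b m n c χ q v B J J₀ t x hJ h0 hB h
  obtain ⟨f, k⟩ := one r1 r2 hp b t x hJ hB
  have u : Nat.card (b.Z0 J (c * q) χ) ≤ pp ^ (B + 4 * pp ^ v) := by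
    rw [k h, pow_add]
    exact Nat.mul_le_mul_right _ h
  rw [two hp hu r1 r2 t x hJ hB u]
  exact ⟨(Nat.mul_le_mul_right _ (mono b c χ h0 f)).trans (k h).ge, u⟩

end Vale.Agent.P014Y.F.Cn
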