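import Vale.Agent.P014U.X4F.St
import Vale.Agent.P004F.Alg.Lam

/-! # P014Y, row CNT: linear algebra over `𝔽_p[T] / T ^ J` (port of P004F; helper15) -/

set_option autoImplicit false
set_option linter.all false

open Matrix PowerSeries

noncomputable section

namespace Vale.Agent.P014Y.F.Cn

open Vale.Agent.P014U
open Vale.Agent.P014U.X4F (Rb)
open Vale.Agent.P004F (M2 Nt)

theorem low0 {k R n : Type} [Field k] [Finite k] [CommRing R] [Fintype n] [DecidableEq n]
    {ρ : k⟦X⟧ →+* R} {J : ℕ} [Finite R] (hk : ∀ x, ρ x = 0 ↔ X ^ J ∣ x) (e : ℕ) :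
    ∀ (A : Matrix n n k⟦X⟧) (m : ℕ), X ^ e ∣ A.det → e + m ≤ J →
      Nat.card k ^ e ≤ Nat.card {y : n → R // A.map ρ *ᵥ y = 0 ∧ ∀ i, ρ X ^ m ∣ y i} := by
  induction e with
  | zero => exact fun A m _ _ => Nat.card_pos_iff.2 ⟨⟨⟨0, mulVec_zero _, fun _ => dvd_zero _⟩⟩,
      inferInstance⟩
  | succ e ih =>
  intro A m h hm
  obtain ⟨v0, hv, h0⟩ := exists_mulVec_eq_zero_iff.2 (show (A.map constantCoeff).det = 0 from
    (RingHom.map_det _ A).symm.trans (X_dvd_iff.1 ((dvd_pow_self X e.succ_ne_zero).trans h)))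
  obtain ⟨i, hi⟩ := Function.ne_iff.1 hv
  obtain ⟨v, v1, h1⟩ : ∃ v : n → k, v i = 1 ∧ A.map constantCoeff *ᵥ v = 0 :=
    ⟨(v0 i)⁻¹ • v0, inv_mul_cancel₀ hi, by rw [mulVec_smul, h0, smul_zero]⟩
  choose r hr using fun j => X_dvd_iff.2 (show constantCoeff ((A *ᵥ fun k => C (v k)) j) = 0 by
    simpa [mulVec, dotProduct] using congrFun h1 j)
  have d : X * (A.updateCol i r).det = A.det := by
    rw [← det_updateCol_smul, ← one_smul k⟦X⟧ A.det, ← map_one C, ← v1,
      ← det_updateCol_sum A i fun k => C (v k)]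
    congr 2; ext j : 1; simp [← hr, mulVec, dotProduct, mul_comm]
  have k0 := ih (A.updateCol i r) (m + 1) ((mul_dvd_mul_iff_left X_prime.ne_zero).1
    (by rwa [d, ← pow_succ'])) (by omega)
  obtain ⟨J, rfl⟩ : ∃ J', J = m + J' + 1 := ⟨J - m - 1, by omega⟩
  have z : ρ X * ρ X ^ (m + J) = 0 := by rw [← pow_succ', ← map_pow, hk]
  have z' (a : k) (e : ρ X ^ (m + J) * ρ (C a) = 0) : a = 0 := by
    rw [← map_pow, ← map_mul, hk, pow_succ, mul_dvd_mul_iff_left (pow_ne_zero _ X_ne_zero)] at e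
    simpa using X_dvd_iff.1 e
  choose s hs using fun y : {y : n → R // (A.updateCol i r).map ρ *ᵥ y = 0 ∧
    ∀ i, ρ X ^ (m + 1) ∣ y i} => y.2.2 i
  let t := fun p : _ × k => ρ X ^ m * s p.1 + ρ X ^ (m + J) * ρ (C p.2)
  have ht (p) : ρ X * t p = p.1.1 i := by
    rw [hs, mul_add, ← mul_assoc _ (ρ X ^ (m + J)), z]; ring
  rw [pow_succ]
  refine (Nat.mul_le_mul_right _ k0).trans (le_trans (by simp) (Nat.card_le_card_of_injective
    (fun p : _ × k => ⟨fun j => Function.update p.1.1 i 0 j + ρ (C (v j)) * t p, ?_, fun j => ?_⟩)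
    fun p q e => ?_))
  · funext j
    have a := congrFun p.1.2.1 j
    have b := congrArg ρ (hr j)
    simp only [mulVec, dotProduct, map_apply, map_sum, map_mul, mul_add, Finset.sum_add_distrib,
      ← mul_assoc, ← Finset.sum_mul] at a b ⊢
    rw [b, mul_comm (ρ X), mul_assoc, ht, ← a, ← Finset.add_sum_erase _ _ (Finset.mem_univ i),
      ← Finset.add_sum_erase _ _ (Finset.mem_univ i), updateCol_self, Function.update_self, mul_zero,
      zero_add, add_comm]
    exact congrArg _ (Finset.sum_congr rfl fun k hk => by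
      rw [updateCol_ne (Finset.ne_of_mem_erase hk), Function.update_of_ne (Finset.ne_of_mem_erase hk)])
  · refine dvd_add ?_ ((dvd_add (dvd_mul_right _ _) ?_).mul_left _)
    · rcases eq_or_ne j i with rfl | c
      · simp
      · rw [Function.update_of_ne c]
        exact (pow_dvd_pow _ m.le_succ).trans (p.1.2.2 j)
    · exact (pow_dvd_pow _ (Nat.le_add_right _ _)).mul_right _
  · have e1 := congrFun (congrArg Subtype.val e)
    have e2 : t p = t q := by simpa [v1] using e1 i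
    have e3 : p.1 = q.1 := Subtype.ext (funext fun j => by
      rcases eq_or_ne j i with rfl | c
      · rw [← ht, ← ht, e2]
      · simpa [e2, c] using e1 j)
    refine Prod.ext e3 ?_
    simp only [t, e3, add_right_inj] at e2
    exact sub_eq_zero.1 (z' _ (by rw [map_sub, map_sub, mul_sub, e2, sub_self]))

variable [Pp] {J : ℕ}

/-- constants -/
abbrev k0 (J : ℕ) : ZMod pp →+* Rb J := (Ideal.Quotient.mk _).comp C

/-- the variable -/
abbrev tt (J : ℕ) : Rb J := Ideal.Quotient.mk _ X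

theorem hk (J : ℕ) (x : (ZMod pp)⟦X⟧) : (Ideal.Quotient.mk _ x : Rb J) = 0 ↔ X ^ J ∣ x :=
  Ideal.Quotient.eq_zero_iff_mem.trans Ideal.mem_span_singleton

theorem fin (J : ℕ) : Finite (Rb J) :=
  .of_equiv _ (P004F.Alg.ps_equiv _ Ideal.Quotient.mk_surjective (hk J)).some.symm

theorem two0 (J : ℕ) : (pp : Rb J) = 0 := by
  rw [← map_natCast (k0 J), ZMod.natCast_self, map_zero]

theorem pow2 (v : ℕ) : (1 + X : (ZMod pp)⟦X⟧) ^ pp ^ v = 1 + X ^ pp ^ v := by
  have : CharP (ZMod pp)⟦X⟧ pp := charP_of_injective_ringHom (C_injective (R := ZMod pp)) pp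
  rw [add_pow_char_pow, one_pow]

theorem pow_one_of {n : ℕ} (h : J ≤ pp ^ n) : (1 + tt J) ^ pp ^ n = 1 := by
  rw [← map_one (Ideal.Quotient.mk _), ← map_add, ← map_pow, pow2, map_add,
    (hk J _).2 (pow_dvd_pow _ h), add_zero]

theorem one_add_pow {v k : ℕ} (h : pp ^ v ∣ k) (h' : ¬pp ^ (v + 1) ∣ k) :
    ∃ ε, IsUnit ε ∧ (1 + tt J) ^ k - 1 = ε * tt J ^ pp ^ v := by
  obtain ⟨k, rfl⟩ := h
  have o : (k : ZMod pp) ≠ 0 := fun e =>
    h' (pow_succ pp v ▸ Nat.mul_dvd_mul_left _ ((ZMod.natCast_eq_zero_iff k pp).1 e))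
  have a := geom_sum_mul (1 + X ^ pp ^ v : (ZMod pp)⟦X⟧) k
  refine ⟨_, IsUnit.map (Ideal.Quotient.mk _) (isUnit_iff_constantCoeff.2 ?_), by
    rw [← map_one (Ideal.Quotient.mk _), ← map_add, ← map_pow, ← map_pow, ← map_sub, ← map_mul,
      pow_mul, pow2, ← a, add_sub_cancel_left]⟩
  simp [pp_ne, o]

section cnt

variable {m n s : Type} [Fintype m] [DecidableEq m] [Fintype n] [Fintype s] [DecidableEq s]

theorem lift (M : Matrix m m (Rb J)) : ∃ A : Matrix m m (ZMod pp)⟦X⟧,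
    A.map (Ideal.Quotient.mk _) = M ∧ Ideal.Quotient.mk _ A.det = M.det := by
  have e : (M.map (Function.surjInv Ideal.Quotient.mk_surjective)).map (Ideal.Quotient.mk _) = M :=
    Matrix.ext fun _ _ => Function.surjInv_eq _ _
  exact ⟨_, e, (RingHom.map_det _ _).trans (congrArg det e)⟩

theorem low {A : Matrix m m (ZMod pp)⟦X⟧} {l : ℕ} (h : X ^ l ∣ A.det) (hl : l ≤ J) :
    pp ^ l ≤ Nat.card {y : m → Rb J // A.map (Ideal.Quotient.mk _) *ᵥ y = 0} := by
  have := fin J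
  simpa using low0 (hk J) l A 0 h hl

/-- the determinant gives the number of solutions -/
theorem ker_of_det {M : Matrix m m (Rb J)} {l : ℕ} {ε : Rb J} (hl : l < J) (u : IsUnit ε)
    (h : M.det = ε * tt J ^ l) : Nat.card {y // M *ᵥ y = 0} = pp ^ l := by
  obtain ⟨A, rfl, e⟩ := lift M
  obtain ⟨η, a⟩ := u.exists_right_inv
  obtain ⟨ε, rfl⟩ := Ideal.Quotient.mk_surjective ε
  obtain ⟨η, rfl⟩ := Ideal.Quotient.mk_surjective η
  rw [← e, ← map_pow, ← map_mul, ← sub_eq_zero, ← map_sub, hk] at h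
  rw [← map_mul, ← map_one (Ideal.Quotient.mk _), ← sub_eq_zero, ← map_sub, hk] at a
  refine le_antisymm (((P004F.Alg.cnt_ps _ Ideal.Quotient.mk_surjective (hk J) A).1 l fun c => ?_).trans_eq
    (by rw [Nat.card_zmod])) (low ?_ hl.le)
  · have b := dvd_sub c ((pow_dvd_pow _ hl).trans h)
    rw [sub_sub_cancel, pow_succ', mul_dvd_mul_iff_right (pow_ne_zero _ X_ne_zero)] at b
    have := dvd_sub (b.mul_right η) ((dvd_pow_self _ (by omega)).trans a)
    rw [sub_sub_cancel] at this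
    exact X_prime.not_dvd_one this
  · simpa using dvd_add ((pow_dvd_pow _ hl.le).trans h) (dvd_mul_left (X ^ l) ε)

theorem det_of_ker {M : Matrix m m (Rb J)} (h : Nat.card {y // M *ᵥ y = 0} < pp ^ J) :
    ∃ l < J, ∃ ε, IsUnit ε ∧ M.det = ε * tt J ^ l := by
  obtain ⟨A, rfl, e⟩ := lift M
  have a : ¬X ^ J ∣ A.det := fun c => (low c le_rfl).not_gt h
  obtain ⟨l, u, k⟩ := IsDiscreteValuationRing.eq_unit_mul_pow_irreducible
    (fun c => a (c ▸ dvd_zero _) : A.det ≠ 0) X_irreducible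
  exact ⟨l, not_le.1 fun c => a (k ▸ (pow_dvd_pow _ c).mul_left _), _, u.isUnit.map _, by
    rw [← e, k, map_mul, map_pow]⟩

theorem sqr (e : m ≃ n) (M : Matrix m n (Rb J)) :
    Nat.card {y // M *ᵥ y = 0} = Nat.card {y // M.submatrix id e *ᵥ y = 0} :=
  (Nat.card_congr ((e.arrowCongr (.refl _)).subtypeEquiv fun y => by
    rw [submatrix_mulVec_equiv]; rfl)).symm

theorem rows {r : Type} (Q : Matrix r n (Rb J)) (W : Matrix s n (Rb J)) (y : n → Rb J) :
    fromRows Q W *ᵥ y = 0 ↔ Q *ᵥ y = 0 ∧ W *ᵥ y = 0 := by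
  simp only [fromRows_mulVec, funext_iff, Sum.forall, Sum.elim_inl, Sum.elim_inr, Pi.zero_apply]

theorem det_mul' {r : Type} [Fintype r] [DecidableEq r] (e : r ⊕ s ≃ n) (Q : Matrix r n (Rb J))
    (W : Matrix s n (Rb J)) (H : Matrix s s (Rb J)) :
    ((fromRows Q (H * W)).submatrix id e).det = H.det * ((fromRows Q W).submatrix id e).det := by
  have := fromBlocks_mul_fromRows Q W (1 : Matrix r r (Rb J)) 0 0 H
  rw [Matrix.one_mul, Matrix.zero_mul, Matrix.zero_mul, add_zero, zero_add] at this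
  rw [← this]
  exact (det_mul (fromBlocks 1 0 0 H) ((fromRows Q W).submatrix id e)).trans (by simp)

theorem blk (e : m ≃ n) (M : Matrix m n (Rb J)) (W : Matrix s n (Rb J)) (H : Matrix s s (Rb J)) :
    Nat.card {z : (n → Rb J) × (s → Rb J) // M *ᵥ z.1 = 0 ∧ W *ᵥ z.1 = H *ᵥ z.2} =
      Nat.card {y // fromBlocks (M.submatrix id e) 0 (W.submatrix id e) (-H) *ᵥ y = 0} :=
  (Nat.card_congr (((Equiv.sumArrowEquivProdArrow _ _ _).trans
    ((e.arrowCongr (.refl _)).prodCongr (.refl _))).subtypeEquiv fun y => by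
      rw [fromBlocks_mulVec, submatrix_mulVec_equiv, submatrix_mulVec_equiv, zero_mulVec, add_zero,
        neg_mulVec, ← sub_eq_add_neg, funext_iff, Sum.forall]
      exact and_congr funext_iff.symm (funext_iff.symm.trans sub_eq_zero))).symm

end cnt

theorem stp1 {J B e r g : ℕ} {s : Type} [Fintype s] [DecidableEq s]
    (Q : Matrix (Fin r) (Fin g) (Rb J)) (W : Matrix s (Fin g) (Rb J)) (H : Matrix s s (Rb J))
    (hc : r + Fintype.card s = g) (hH : ∃ ε, IsUnit ε ∧ H.det = ε * tt J ^ e) (hB : B + e < J)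
    (h : Nat.card {y // Q *ᵥ y = 0 ∧ W *ᵥ y = 0} ≤ pp ^ B) :
    Nat.card {y // Q *ᵥ y = 0 ∧ (H * W) *ᵥ y = 0} =
      Nat.card {y // Q *ᵥ y = 0 ∧ W *ᵥ y = 0} * pp ^ e := by
  have E : Fin r ⊕ s ≃ Fin g := Fintype.equivOfCardEq (by simp [hc])
  simp only [← rows, sqr E] at h ⊢
  obtain ⟨l, a, ε, u, k⟩ := det_of_ker (h.trans_lt (Nat.pow_lt_pow_right one_lt (by omega)))
  obtain ⟨η, v, k'⟩ := hH
  rw [ker_of_det a u k, Nat.pow_le_pow_iff_right one_lt] at h
  rw [ker_of_det a u k, ← pow_add]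
  exact ker_of_det (by omega) (v.mul u) (by rw [det_mul', k, k']; ring)

/-- the local complex in the ramified case -/
theorem ex_E {R : Type} [CommRing R] {n m : M2 R} (h1 : n * n = 0) (h2 : m * m = 0)
    (h3 : n * m + m * n = 1) (a a' b c q d ε q' ε' : R) (e1 : q * q' = 1) (e2 : ε * ε' = 1)
    (e3 : a = ε * d) :
    ∃ (E E' : Matrix (Fin 2 ⊕ Fin 2) (Fin 2 ⊕ Fin 2) R) (H H' : M2 R) (η : R), E' * E = 1 ∧
      E * fromRows (a • (n * m) + a' • (m * n) + b • n) n = fromRows H 0 ∧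
      fromCols (-(q • n)) ((q * a') • (n * m) + d • (m * n) + (q * c) • n) =
        fromCols (0 : M2 R) H' * E ∧ IsUnit η ∧ H.det = η * H'.det := by
  have k3 : m * n = 1 - n * m := eq_sub_of_add_eq' h3
  have k1 : ∀ x : M2 R, n * (n * x) = 0 := fun x => by rw [← mul_assoc, h1, zero_mul]
  have k2 : ∀ x : M2 R, m * (m * x) = 0 := fun x => by rw [← mul_assoc, h2, zero_mul]
  have k4 : ∀ x : M2 R, m * (n * x) = x - n * (m * x) := fun x => by
    rw [← mul_assoc, k3, sub_mul, one_mul, mul_assoc]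
  refine ⟨fromBlocks m (n * m - b • m) (-(m * n)) (a' • m + n + c • (m * n)),
    fromBlocks (n + b • (n * m) + a' • m) (c • m - m * n) (n * m) m, n + a • m, q • n + d • m,
    (q' • (n * m) + ε • (m * n)).det, ?_, ?_, ?_,
    isUnit_det_of_right_inverse (B := q • (n * m) + ε' • (m * n)) ?_, ?_⟩
  · rw [fromBlocks_multiply, ← fromBlocks_one, fromBlocks_inj]
    refine ⟨?_, ?_, ?_, ?_⟩ <;>
      simp only [mul_add, add_mul, mul_sub, sub_mul, smul_mul_assoc, mul_smul_comm, mul_assoc, mul_neg,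
        h1, h2, k1, k2, k3, k4, mul_one, one_mul, mul_zero, smul_zero] <;> module
  · rw [fromBlocks_mul_fromRows, fromRows_ext_iff]
    refine ⟨?_, ?_⟩ <;>
      simp only [mul_add, add_mul, mul_sub, sub_mul, smul_mul_assoc, mul_smul_comm, mul_assoc, neg_mul,
        h1, h2, k1, k2, k3, k4, mul_one, one_mul, mul_zero, smul_zero] <;> module
  · rw [fromCols_mul_fromBlocks, fromCols_ext_iff]
    refine ⟨?_, ?_⟩ <;>
      simp only [mul_add, add_mul, mul_sub, sub_mul, smul_mul_assoc, mul_smul_comm, mul_assoc, mul_neg,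
        h1, h2, k1, k2, k3, k4, mul_one, one_mul, mul_zero, zero_mul, smul_zero] <;> module
  · simp only [mul_add, add_mul, mul_sub, sub_mul, smul_mul_assoc, mul_smul_comm, mul_assoc,
      h1, h2, k1, k2, k3, k4, mul_one, one_mul, mul_zero, zero_mul, smul_zero]
    linear_combination (norm := module) e1 • (n * m) + e2 • (1 - n * m)
  · rw [← det_mul, e3]
    congr 1
    simp only [mul_add, add_mul, mul_sub, sub_mul, smul_mul_assoc, mul_smul_comm, mul_assoc,
      h1, h2, k1, k2, k3, k4, mul_one, one_mul, mul_zero, zero_mul, smul_zero]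
    linear_combination (norm := module) (-e1) • n

theorem un_pow {R : Type} [CommRing R] {n : M2 R} (h : n * n = 0) (i : ℕ) :
    (1 + n) ^ i = 1 + (i : R) • n := by
  induction i with
  | zero => simp
  | succ i ih =>
    simp only [pow_succ, ih, mul_add, add_mul, smul_mul_assoc, h, mul_one, one_mul, Nat.cast_succ]
    module

theorem nt_eq {R : Type} [CommRing R] {n : M2 R} (h : n * n = 0) (p : ℕ) (A : M2 R) :
    Nt A (1 + n) p = fromCols (-((p : R) • n))
      (A - (p : R) • 1 - ((∑ i ∈ Finset.range p, i : ℕ) : R) • n) := by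
  simp only [Nt, un_pow h, sub_add_cancel_left, Finset.sum_add_distrib, Finset.sum_const,
    Finset.card_range, ← Finset.sum_smul, Nat.cast_sum, ← Nat.cast_smul_eq_nsmul R p, sub_sub]

theorem cls {F : Type} [Field F] {n A : M2 F} {q : F} (h : n * n = 0) (h0 : n ≠ 0)
    (hA : A * n = q • (n * A)) : ∃ (m : M2 F) (β δ : F), m * m = 0 ∧ n * m + m * n = 1 ∧
      A = (q * β) • (n * m) + β • (m * n) + δ • n ∧ A.det = q * β ^ 2 := by
  obtain ⟨x, y, z, w, rfl⟩ : ∃ x y z w, n = !![x, y; z, w] := ⟨_, _, _, _, eta_fin_two n⟩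
  obtain ⟨a, b, c, d, rfl⟩ : ∃ a b c d, A = !![a, b; c, d] := ⟨_, _, _, _, eta_fin_two A⟩
  have e := fun i j => congrFun (congrFun h i) j
  have f := fun i j => congrFun (congrFun hA i) j
  have e0 : x * x + y * z = 0 := by simpa using e 0 0
  have e1 : x * y + y * w = 0 := by simpa using e 0 1
  have e3 : z * y + w * w = 0 := by simpa using e 1 1
  have f0 : a * x + b * z = q * (x * a + y * c) := by simpa using f 0 0
  have f1 : a * y + b * w = q * (x * b + y * d) := by simpa using f 0 1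
  have f2 : c * x + d * z = q * (z * a + w * c) := by simpa using f 1 0
  have f3 : c * y + d * w = q * (z * b + w * d) := by simpa using f 1 1
  clear e f h hA
  by_cases hy : y = 0
  · subst hy
    obtain rfl : x = 0 := by simpa using e0
    obtain rfl : w = 0 := by simpa using e3
    have hz : z ≠ 0 := fun k => h0 (by rw [k]; ext i j; fin_cases i <;> fin_cases j <;> rfl)
    obtain rfl : b = 0 := by simpa [hz] using f0
    obtain rfl : d = q * a := mul_right_cancel₀ hz (by linear_combination f2)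
    refine ⟨!![0, z⁻¹; 0, 0], a, c / z, ?_, ?_, ?_, by rw [det_fin_two_of]; ring⟩ <;>
      ext i j <;> fin_cases i <;> fin_cases j <;> simp [hz]
  · obtain ⟨s, rfl⟩ : ∃ s, x = s * y := ⟨x / y, by field_simp⟩
    obtain rfl : w = -(s * y) := mul_left_cancel₀ hy (by linear_combination e1)
    obtain rfl : z = -(s * s * y) := mul_left_cancel₀ hy (by linear_combination e0)
    obtain rfl : a = q * (d + b * s) + b * s := mul_right_cancel₀ hy (by linear_combination f1)
    obtain rfl : c = d * s - q * s * (d + b * s) := mul_right_cancel₀ hy (by linear_combination f3)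
    refine ⟨!![0, 0; y⁻¹, 0], d + b * s, b / y, ?_, ?_, ?_, by rw [det_fin_two_of]; ring⟩ <;>
      ext i j <;> fin_cases i <;> fin_cases j <;> simp [hy] <;> field_simp <;> ring

/-- the residue map -/
def π (h : 0 < J) : Rb J →+* ZMod pp := Ideal.Quotient.lift _ constantCoeff fun x m =>
  X_dvd_iff.1 ((dvd_pow_self _ h.ne').trans (Ideal.mem_span_singleton.1 m))

theorem π_k0 (h : 0 < J) (x : ZMod pp) : π h (k0 J x) = x := constantCoeff_C x

theorem π_tt (h : 0 < J) : π h (tt J) = 0 := constantCoeff_X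

theorem loc (h : 0 < J) : IsLocalRing (Rb J) :=
  have := (π h).domain_nontrivial
  .of_surjective' _ Ideal.Quotient.mk_surjective

theorem un_of (h : 0 < J) {x : Rb J} (e : π h x ≠ 0) : IsUnit x := by
  obtain ⟨x, rfl⟩ := Ideal.Quotient.mk_surjective x
  exact (isUnit_iff_constantCoeff.2 (Ne.isUnit e)).map _

theorem tt_mod {n k k' : ℕ} (hJ : J ≤ pp ^ n) (h : k ≡ k' [MOD pp ^ n]) :
    (1 + tt J) ^ k = (1 + tt J) ^ k' := by
  rw [pow_eq_pow_mod k (pow_one_of hJ), h, ← pow_eq_pow_mod k' (pow_one_of hJ)]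

theorem tt_one {n k : ℕ} (hJ : J ≤ pp ^ n) (h : pp ^ n ∣ k) : (1 + tt J) ^ k = 1 :=
  (tt_mod hJ (Nat.modEq_zero_iff_dvd.2 h)).trans (pow_zero _)

theorem as0 (h : 0 < J) {x y : Rb J} (e : π h x ≠ 0) (e' : π h y ≠ 0) :
    ∃ ε, IsUnit ε ∧ x = ε * y :=
  ⟨x * (un_of h e').unit⁻¹, (un_of h e).mul (Units.isUnit _), by
    rw [mul_assoc, IsUnit.val_inv_mul, mul_one]⟩

theorem as1 (h : 0 < J) {u : Rb J} (hu : π h u = 1) (a : ZMod pp) :
    ∃ ε, IsUnit ε ∧ k0 J a * u - 1 = ε * (u - k0 J a) := by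
  by_cases e : a = 1
  · exact ⟨1, isUnit_one, by rw [e, map_one, one_mul, one_mul]⟩
  · exact as0 h (by rwa [map_sub, map_mul, hu, π_k0, map_one, mul_one, sub_ne_zero]) (by
      rwa [map_sub, hu, π_k0, sub_ne_zero, ne_comm])

theorem id1 {R : Type} [CommRing R] {x y : M2 R} (z : M2 R) (h : x + y = 1) (u p b d c : R) :
    u • ((p * b) • x + b • y + d • z) - 1 = (p * b * u - 1) • x + (b * u - 1) • y + (u * d) • z ∧
    u • ((p * b) • x + b • y + d • z) - p • 1 - c • z =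
      (p * (b * u - 1)) • x + (b * u - p) • y + (u * d - c) • z := by
  rw [← h]; constructor <;> module

theorem ex_loc (hJ : 0 < J) {p : ℕ} (od : (p : ZMod pp) ≠ 0) {u : Rb J} (hu : π hJ u = 1)
    {A U : M2 (ZMod pp)} (h1 : (U - 1) ^ 2 = 0) (h2 : A.det = p) (h3 : A * U = U ^ p * A) :
    ∃ (E E' : Matrix (Fin 2 ⊕ Fin 2) (Fin 2 ⊕ Fin 2) (Rb J)) (H H' : M2 (Rb J)) (η : Rb J),
      E' * E = 1 ∧ E * fromRows (u • A.map (k0 J) - 1) (U.map (k0 J) - 1) = fromRows H 0 ∧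
      Nt (u • A.map (k0 J)) (U.map (k0 J)) p = fromCols (0 : M2 (Rb J)) H' * E ∧
      IsUnit η ∧ H.det = η * H'.det := by
  let f := (k0 J).mapMatrix (m := Fin 2)
  obtain ⟨N, rfl⟩ : ∃ N, U = 1 + N := ⟨U - 1, by abel⟩
  rw [add_sub_cancel_left, pow_two] at h1
  have e : (1 + N).map (k0 J) = 1 + f N := by rw [← map_one f, ← map_add]; rfl
  have n : f N * f N = 0 := by rw [← map_mul, h1, map_zero]
  have hp : k0 J p = p := map_natCast _ p
  have up : IsUnit (p : Rb J) := hp ▸ (Ne.isUnit od).map _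
  rw [e, nt_eq n, add_sub_cancel_left]
  by_cases z : N = 0
  · have d : k0 J (A 0 0) * k0 J (A 1 1) - k0 J (A 0 1) * k0 J (A 1 0) = p := by
      rw [← hp, ← h2, det_fin_two, map_sub, map_mul, map_mul]
    have d1 : (u • A.map (k0 J) - 1).det = p * u ^ 2 - k0 J A.trace * u + 1 := by
      simp [det_fin_two, trace_fin_two]; linear_combination u ^ 2 * d
    have d2 : (u • A.map (k0 J) - (p : Rb J) • 1).det = p * (u ^ 2 - k0 J A.trace * u + p) := by
      simp only [det_fin_two, trace_fin_two, Matrix.sub_apply, Matrix.smul_apply, map_apply, one_apply_eq,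
        smul_eq_mul, map_add, one_apply_ne zero_ne_one, one_apply_ne one_ne_zero]
      linear_combination u ^ 2 * d
    obtain ⟨ε, k, k'⟩ : ∃ ε, IsUnit ε ∧ p * u ^ 2 - k0 J A.trace * u + 1 =
        ε * (p * (u ^ 2 - k0 J A.trace * u + p)) := by
      by_cases t : A.trace = p + 1
      · obtain ⟨ε, k, k'⟩ := as1 hJ hu p
        obtain ⟨w, hw⟩ := up.exists_left_inv
        refine ⟨ε * w, k.mul (.of_mul_eq_one _ hw), ?_⟩
        rw [t, map_add, map_one, hp] at *
        linear_combination (u - 1) * k' - ε * (u - 1) * (u - p) * hw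
      · refine as0 hJ (fun c => t ?_) fun c => t ?_
        · simp only [map_add, map_sub, map_mul, map_pow, hu, π_k0, map_natCast, map_one] at c
          linear_combination -c
        · simp only [map_add, map_sub, map_mul, map_pow, hu, π_k0, map_natCast, map_one] at c
          linear_combination -(mul_eq_zero.1 c).resolve_left od
    exact ⟨1, 1, u • A.map (k0 J) - 1, u • A.map (k0 J) - (p : Rb J) • 1, ε, by simp, by simp [z],
      by simp [z], k, by rw [d1, d2, k']⟩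
  · obtain ⟨m, β, δ, a, b, c, d⟩ := cls (A := A) (q := p) h1 z (by
      rw [un_pow h1, mul_add, add_mul, mul_one, one_mul, smul_mul_assoc] at h3
      exact add_left_cancel h3)
    have b2 : k0 J β * k0 J β = 1 := by
      rw [← map_mul, ← pow_two, mul_left_cancel₀ od (d.symm.trans (h2.trans (mul_one _).symm)),
        map_one]
    have b1 : f N * f m + f m * f N = 1 := by rw [← map_mul, ← map_mul, ← map_add, b, map_one]
    have sm (x : ZMod pp) (B : M2 (ZMod pp)) : f (x • B) = k0 J x • f B :=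
      Matrix.ext fun i j => map_mul (k0 J) _ _
    have k : A.map (k0 J) = (p * k0 J β) • (f N * f m) + k0 J β • (f m * f N) + k0 J δ • f N := by
      refine (congrArg f c).trans ?_
      rw [map_add, map_add, sm, sm, sm, map_mul, map_mul, map_mul, hp]
    obtain ⟨ε, ⟨ε, rfl⟩, k'⟩ := as1 hJ hu (p * β)
    obtain ⟨w, hw⟩ := up.exists_right_inv
    rw [map_mul, hp] at k'
    obtain ⟨E, E', H, H', η, k1, k2, k3, k4⟩ := ex_E (m := f m) n (by rw [← map_mul, a, map_zero]) b1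
      (p * k0 J β * u - 1) (k0 J β * u - 1) (u * k0 J δ)
      (w * (u * k0 J δ - (∑ i ∈ Finset.range p, i : ℕ))) p (k0 J β * u - p) (ε * k0 J β) w
      (k0 J β * ε⁻¹.1) hw (by rw [mul_assoc, ← mul_assoc (k0 J β), b2, one_mul, Units.mul_inv])
      (by linear_combination k' - ε * u * b2)
    refine ⟨E, E', H, H', η, k1, ?_, ?_, k4⟩
    · rw [← k2, k, (id1 _ b1 _ _ _ _ 0).1]
    · rw [← k3, k, (id1 _ b1 _ _ _ _ _).2, ← mul_assoc (p : Rb J) w, hw, one_mul]

theorem stp2 {J r g : ℕ} (hJ : 0 < J) {ι : Type} [Fintype ι] (Q : Matrix (Fin r) (Fin g) (Rb J))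
    (w : ι → Matrix (Fin 2 ⊕ Fin 2) (Fin g) (Rb J)) (A U : ι → M2 (Rb J)) (p : ι → ℕ)
    (hc : r + 2 * Fintype.card ι = g) (od : ∀ i, (p i : ZMod pp) ≠ 0)
    (hA : ∀ i, ∃ (u : Rb J) (A0 U0 : M2 (ZMod pp)), A i = u • A0.map (k0 J) ∧ U i = U0.map (k0 J) ∧
      π hJ u = 1 ∧ (U0 - 1) ^ 2 = 0 ∧ A0.det = p i ∧ A0 * U0 = U0 ^ p i * A0)
    (h : Nat.card {y // Q *ᵥ y = 0 ∧ ∀ i, (Nt (A i) (U i) (p i) * w i) *ᵥ y = 0} < pp ^ J) :
    Nat.card {z : (Fin g → Rb J) × (ι → Fin 2 → Rb J) // Q *ᵥ z.1 = 0 ∧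
      ∀ i, w i *ᵥ z.1 = Sum.elim ((A i - 1) *ᵥ z.2 i) ((U i - 1) *ᵥ z.2 i)} =
      Nat.card {y // Q *ᵥ y = 0 ∧ ∀ i, (Nt (A i) (U i) (p i) * w i) *ᵥ y = 0} := by
  classical
  have : ∀ i, ∃ (E E' : Matrix (Fin 2 ⊕ Fin 2) (Fin 2 ⊕ Fin 2) (Rb J)) (H H' : M2 (Rb J))
      (η : Rb J), E' * E = 1 ∧ E * fromRows (A i - 1) (U i - 1) = fromRows H 0 ∧
      Nt (A i) (U i) (p i) = fromCols (0 : M2 (Rb J)) H' * E ∧ IsUnit η ∧ H.det = η * H'.det :=
    fun i => by
    obtain ⟨u, A0, U0, a, b, u1, c, d, e⟩ := hA i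
    rw [a, b]
    exact ex_loc hJ (od i) u1 c d e
  choose E E' H H' η k1 k2 k3 k4 k5 using this
  have e : Fin r ⊕ Fin 2 × ι ≃ Fin g := Fintype.equivOfCardEq (by simp [hc])
  let W₁ : Matrix (Fin 2 × ι) (Fin g) (Rb J) := fun x => (E x.2 * w x.2) (.inl x.1)
  let W₂ : Matrix (Fin 2 × ι) (Fin g) (Rb J) := fun x => (E x.2 * w x.2) (.inr x.1)
  have bd : ∀ (H : ι → M2 (Rb J)) (v : Fin 2 × ι → Rb J) x, (blockDiagonal H *ᵥ v) x =
      (H x.2 *ᵥ fun j => v (j, x.2)) x.1 := fun H v x => by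
    simp [mulVec, dotProduct, blockDiagonal_apply, Fintype.sum_prod_type]
  have e1 : ∀ y, (∀ i, (Nt (A i) (U i) (p i) * w i) *ᵥ y = 0) ↔
      (blockDiagonal H' * W₂) *ᵥ y = 0 := fun y => by
    simp only [k3, Matrix.mul_assoc, ← mulVec_mulVec y (fromCols _ _), ← mulVec_mulVec y (blockDiagonal _),
      fromCols_mulVec, zero_mulVec, zero_add, funext_iff, bd, Prod.forall]
    exact forall_comm
  have e2 : Nat.card {z : (Fin g → Rb J) × (ι → Fin 2 → Rb J) // Q *ᵥ z.1 = 0 ∧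
      ∀ i, w i *ᵥ z.1 = Sum.elim ((A i - 1) *ᵥ z.2 i) ((U i - 1) *ᵥ z.2 i)} =
      Nat.card {z : (Fin g → Rb J) × (Fin 2 × ι → Rb J) // fromRows Q W₂ *ᵥ z.1 = 0 ∧
        W₁ *ᵥ z.1 = blockDiagonal H *ᵥ z.2} := by
    refine Nat.card_congr (((Equiv.refl _).prodCongr
      ((Equiv.piComm _).trans (Equiv.curry _ _ _).symm)).subtypeEquiv fun z => ?_)
    have : ∀ i, w i *ᵥ z.1 = Sum.elim ((A i - 1) *ᵥ z.2 i) ((U i - 1) *ᵥ z.2 i) ↔
        (E i * w i) *ᵥ z.1 = Sum.elim (H i *ᵥ z.2 i) 0 := fun i => by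
      rw [← fromRows_mulVec, ← zero_mulVec (z.2 i), ← fromRows_mulVec, ← k2, ← mulVec_mulVec,
        ← mulVec_mulVec]
      exact ⟨congrArg _, fun a => by
        simpa only [mulVec_mulVec, ← Matrix.mul_assoc, k1, Matrix.one_mul] using
          congrArg (E' i *ᵥ ·) a⟩
    simp only [rows, this, and_assoc, funext_iff, bd, Sum.forall, Prod.forall, forall_and]
    exact and_congr_right' (and_comm.trans (and_congr forall_comm forall_comm))
  simp only [e1, ← rows, sqr e] at h ⊢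
  obtain ⟨l, a, ε, u, k⟩ := det_of_ker h
  rw [e2, blk e, ker_of_det a u k]
  refine ker_of_det a (((isUnit_one.neg.pow (Fintype.card (Fin 2 × ι))).mul
    (IsUnit.prod_univ_iff.2 k4)).mul u) ?_
  rw [det_fromBlocks_zero₁₂, det_neg, mul_assoc _ ε, ← k, det_mul', det_blockDiagonal,
    det_blockDiagonal, Finset.prod_congr rfl fun i _ => k5 i, Finset.prod_mul_distrib]
  ring

namespace Mo

variable {J₀ k : ℕ}

/-- multiplication by `T ^ k` -/
def sh (J₀ k : ℕ) : Rb J₀ →ₗ[(ZMod pp)⟦X⟧] Rb (k + J₀) :=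
  Submodule.mapQ _ _ (LinearMap.mulLeft _ (X ^ k)) fun x hx => by
    obtain ⟨y, rfl⟩ := Ideal.mem_span_singleton.1 hx
    exact Ideal.mem_span_singleton.2 ⟨y, by simp [pow_add, mul_assoc]⟩

theorem sh_mk (f : (ZMod pp)⟦X⟧) :
    sh J₀ k (Ideal.Quotient.mk _ f) = Ideal.Quotient.mk _ (X ^ k * f) := rfl

theorem sh_mul (f : (ZMod pp)⟦X⟧) (y : Rb J₀) :
    sh J₀ k (Ideal.Quotient.mk _ f * y) = Ideal.Quotient.mk _ f * sh J₀ k y := by
  obtain ⟨y, rfl⟩ := Ideal.Quotient.mk_surjective y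
  rw [← map_mul, sh_mk, sh_mk, ← map_mul, mul_left_comm]

theorem sh_inj : Function.Injective (sh J₀ k) := (injective_iff_map_eq_zero _).2 fun y h => by
  obtain ⟨y, rfl⟩ := Ideal.Quotient.mk_surjective y
  rw [sh_mk, hk, pow_add, mul_dvd_mul_iff_left (pow_ne_zero _ X_prime.ne_zero)] at h
  exact (hk _ _).2 h

end Mo

end Vale.Agent.P014Y.F.Cn
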