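import Vale.Agent.P014Y.F.St
import Vale.Agent.P014Y.F.Cn.Alg
import Vale.Agent.P004F.Cn.Gen
import Vale.Agent.P014U.X4F.Ra.Ra

/-! # P014Y, row CNT: presentations with tame parameters, the split prime (port of P004F; helper15) -/

set_option linter.all false

open NumberField Matrix PowerSeries
open scoped Classical Pointwise

noncomputable section

namespace Vale.Agent.P014Y.F.Cn

open Vale.Agent.P022 Vale.Agent.P022K Vale.Agent.P014U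
open Vale.Agent.P004K (RC1 RC2 Hc)
open Vale.Agent.P027M.S (Inert)
open Vale.Agent.P022D.W (dec inP_le_dec phi_mem)
open Vale.Agent.P022E.GW (Ov Fb)
open P004F.Pr (ac ac_add ac_zero Zs)
open P004F.Cn.Gx

variable [Pp] {R : Type} [CommRing R] {ι : Type} {Γ : Subgroup GQ} {T : Finset ℕ}
  {a : GQ → M2 R} {l : ℕ} {P : Ideal (𝓞 Qb)} {φ τ : GQ}

/-- a tame place of degree one -/
structure Tp (Γ : Subgroup GQ) (a : GQ → M2 R) (l : ℕ) (P : Ideal (𝓞 Qb)) (φ τ : GQ) : Prop where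
  ne : l ≠ pp
  ov : Ov l P
  fb : Fb l P φ
  gn : Gn l P τ
  le : dec P ≤ Γ
  ord : ∀ g, Inert P g → ∃ n : ℕ, a g ^ pp ^ n = 1

theorem Tp.mφ (h : Tp Γ a l P φ τ) : φ ∈ dec P := phi_mem h.ov.1 h.ov.2.1 h.fb

theorem Tp.mτ (h : Tp Γ a l P φ τ) : τ ∈ dec P := inP_le_dec h.gn.1

theorem Tp.loc [Finite R] (h2 : (pp : R) = 0) (G : Gd Γ T a) (h : Tp Γ a l P φ τ) :
    ∃ b : GQ → Matrix (Fin 2) (Fin 2 ⊕ Fin 2) R,
    (∀ g ∈ Γ ⊓ dec P, ∀ h ∈ Γ ⊓ dec P, ∃ β : M2 R,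
      b (g * h) = b g + a g * b h + β * Nt (a φ) (a τ) l) ∧
    (∃ W : Subgroup GQ, IsOpen (W : Set GQ) ∧ ∀ g ∈ Γ ⊓ dec P, ∀ w ∈ Γ ⊓ dec P, w ∈ W →
      b (g * w) = b g) ∧
    b φ = fromCols 1 0 ∧ b τ = fromCols 0 1 ∧
    ∀ (x : GQ → Fin 2 → R),
      (∀ g ∈ Γ, ∀ h ∈ Γ, x (g * h) = x g + a g *ᵥ x h) →
      (∃ W : Subgroup GQ, IsOpen (W : Set GQ) ∧ ∀ w ∈ Γ, w ∈ W → x w = 0) →
      Nt (a φ) (a τ) l *ᵥ Sum.elim (x φ) (x τ) = 0 ∧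
      ∀ g ∈ dec P, x g = b g *ᵥ Sum.elim (x φ) (x τ) := by
  obtain ⟨b, b1, b2, b3, b4, b5⟩ := X4F.Lt.loct R 1 (by rw [pow_one, h2]) Γ l 1 P φ τ a h.ov h.ne one_pos h.fb
    h.gn (fun g m => h.le (inP_le_dec m)) (fun i => iff_of_true (pow_mem (h.le h.mφ) i) (one_dvd i))
    G.opn G.one (fun g m j n => G.mul g m.1 j n.1)
    (G.lc.imp fun W k => ⟨k.1, fun w m => k.2 w m.1⟩) h.ord
  simp only [pow_one] at b1 b3 b5
  refine ⟨b, b1, b2, b3, b4, fun x c k => ?_⟩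
  have := b5 R x (fun g m j n => c g m.1 j n.1) (k.imp fun W k => ⟨k.1, fun w m => k.2 w m.1⟩)
  exact ⟨this.1, fun g m => this.2 g ⟨h.le m, m⟩⟩

/-- a class which is a coboundary at `φ` and `τ` is a coboundary on the decomposition group -/
theorem Tp.det2 [Finite R] (h2 : (pp : R) = 0) (G : Gd Γ T a) (h : Tp Γ a l P φ τ)
    {T' : Finset ℕ} {x : GQ → Fin 2 → R} (X : Cc Γ T' a x) {m : Fin 2 → R}
    (e1 : x φ = (a φ - 1) *ᵥ m) (e2 : x τ = (a τ - 1) *ᵥ m) : ∀ g ∈ dec P, x g = (a g - 1) *ᵥ m := by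
  obtain ⟨b, -, -, -, -, k⟩ := h.loc h2 G
  obtain ⟨W, hW, w⟩ := X.lc
  obtain ⟨V, hV, v⟩ := G.lc
  intro g hg
  have := (k (fun g => x g - (a g - 1) *ᵥ m) (fun g p j q => ?_) ⟨W ⊓ V, hW.inter hV,
    fun u p q => by rw [w u q.1, v u p q.2, sub_self, zero_mulVec, sub_self]⟩).2 g hg
  · rw [e1, e2, sub_self, sub_self, Sum.elim_zero_zero, mulVec_zero] at this
    exact sub_eq_zero.1 this
  · rw [X.coc g p j q, G.mul g p j q, mulVec_sub, mulVec_mulVec, mul_sub, mul_one, sub_mulVec,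
      sub_mulVec, sub_mulVec]
    change _ + _ *ᵥ _ - _ = _
    abel

/-- **presentation** of the cocycles which vanish at `P2` -/
theorem gen (hp : PRESN) [IsLocalRing R] [Finite R] (π : R →+* ZMod pp)
    (h2 : (pp : R) = 0) (G : Gd Γ T a) {P2 : Ideal (𝓞 Qb)} (o2 : Ov pp P2) (d2 : dec P2 ≤ Γ)
    [Fintype ι] (l : ι → ℕ) (P : ι → Ideal (𝓞 Qb)) (φ τ : ι → GQ) (hT : ∀ i, l i ∈ T)
    (hι : ∀ i, Tp Γ a (l i) (P i) (φ i) (τ i)) (un : ∀ i j, ∀ g ∈ Γ, P j = g • P i → i = j)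
    (rel : ∃ s ∈ T, s ≠ pp ∧ ∃ Q, Ov s Q ∧ dec Q ≤ Γ ∧ (∀ g ∈ dec Q, (a g).map π = 1) ∧
      ∀ i, l i ≠ s) :
    ∃ (g r : ℕ) (Q : Matrix (Fin r) (Fin g) R) (w : ι → Matrix (Fin 2 ⊕ Fin 2) (Fin g) R)
      (F : (Fin g → R) → GQ → Fin 2 → R), r + 2 * Fintype.card ι = g ∧
      Set.BijOn F {y | Q *ᵥ y = 0 ∧ ∀ i, (Nt (a (φ i)) (a (τ i)) (l i) * w i) *ᵥ y = 0}
        {x | Cc Γ T a x ∧ ∀ g ∈ dec P2, x g = 0} ∧
      ∀ y, Q *ᵥ y = 0 → (∀ i, (Nt (a (φ i)) (a (τ i)) (l i) * w i) *ᵥ y = 0) →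
        ∀ i, w i *ᵥ y = Sum.elim (F y (φ i)) (F y (τ i)) := by
  choose b b1 b2 b3 b4 b5 using fun i => (hι i).loc h2 G
  have nq : ∀ {p q : ℕ} {A B : Ideal (𝓞 Qb)} {g : GQ}, Ov p A → Ov q B → B = g • A → p = q :=
    fun o o' e => GW.Pl.ov_uniq (GW.ov_smul o _) (e ▸ o')
  obtain ⟨g, r, Q, u, w, bij, -, crd⟩ := hp R π (ι × (Fin 2 ⊕ Fin 2)) (ι × Fin 2) (Option ι) Γ T a
    (fun o => o.elim P2 P) (fun o g => o.elim 0 fun i => em i (b i g))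
    (dg fun i => Nt (a (φ i)) (a (τ i)) (l i)) G
    (by rintro (_ | i); exacts [⟨pp, G.pm, o2⟩, ⟨_, hT i, (hι i).ov⟩])
    (by
      rintro (_ | i) (_ | j) g m e
      exacts [rfl, ((hι j).ne (nq o2 (hι j).ov e).symm).elim, ((hι i).ne (nq (hι i).ov o2 e)).elim,
        congrArg _ (un i j g m e)])
    ⟨none, o2, d2, by
      rintro (_ | j) o
      exacts [rfl, ((hι j).ne (GW.Pl.ov_uniq (hι j).ov o)).elim]⟩
    (by
      rintro (_ | i) g m j n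
      exacts [⟨0, by simp⟩, (b1 i g m j n).elim fun β k => ⟨_, em_coc k⟩])
    (by
      rintro (_ | i)
      exacts [⟨⊤, isOpen_univ, fun _ _ _ _ _ => rfl⟩, (b2 i).imp fun W k =>
        ⟨k.1, fun g m v n p => congrArg (em i) (k.2 g m v n p)⟩])
    (by
      obtain ⟨s, a1, a2, Q, a3, a4, a5, a6⟩ := rel
      refine ⟨s, a1, a2, Q, a3, a4, a5, ?_⟩
      rintro (_ | i) g - e
      exacts [a2 (nq o2 a3 e).symm, a6 i (nq (hι i).ov a3 e)])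
  have bij := bij R
  have k0 : ∀ y : Fin g → R, ac (dg (fun i => Nt (a (φ i)) (a (τ i)) (l i)) * w) y = 0 ↔
      ∀ i, (Nt (a (φ i)) (a (τ i)) (l i) * w.submatrix (Prod.mk i) id) *ᵥ y = 0 := fun y => by
    change _ *ᵥ y = 0 ↔ _
    simp only [← mulVec_mulVec, dg_mv]
    rfl
  have k1 : ∀ x ∈ Zs R Γ T a (fun o : Option ι => o.elim P2 P)
      (fun o g => o.elim 0 fun i => em i (b i g)),
      ∀ i, (fun c => x.2 (i, c)) = Sum.elim (x.1 (φ i)) (x.1 (τ i)) := fun x m i => by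
    have e := fun g n => (m.2.2.2.2 (some i) g ⟨(hι i).le n, n⟩).trans (em_mv i _ _)
    rw [e _ (hι i).mφ, e _ (hι i).mτ, b3, b4, fromCols_mulVec, fromCols_mulVec]
    ext (c | c) <;> simp
  have k2 := fun y (h1 : Q *ᵥ y = 0) h2 => (bij.1 (x := y) ⟨h1, (k0 y).2 h2⟩).1
  refine ⟨g, r, Q, fun i => w.submatrix (Prod.mk i) id, fun y γ => u γ *ᵥ y, by
    simp at crd; omega, ⟨fun y ⟨h1, h2⟩ => ?_, fun y ⟨h1, h2⟩ z ⟨h3, h4⟩ e => ?_,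
      fun x ⟨X, h0⟩ => ?_⟩, fun y h1 h2 => k1 _ (k2 y h1 h2)⟩
  · have m := k2 y h1 h2
    exact ⟨⟨m.1, m.2.1, m.2.2.1, m.2.2.2.1⟩, fun g n =>
      (m.2.2.2.2 none g ⟨d2 n, n⟩).trans (zero_mulVec _)⟩
  · refine bij.2.1 ⟨h1, (k0 y).2 h2⟩ ⟨h3, (k0 z).2 h4⟩ (Prod.ext e (funext fun ⟨i, c⟩ => ?_))
    exact (congrFun (k1 _ (k2 y h1 h2) i) c).trans
      ((congrArg (fun x : GQ → Fin 2 → R => Sum.elim (x (φ i)) (x (τ i)) c) e).trans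
        (congrFun (k1 _ (k2 z h3 h4) i) c).symm)
  · have c := fun i => b5 i x X.coc (X.lc.imp fun W k => ⟨k.1, fun w _ => k.2 w⟩)
    obtain ⟨y, ⟨h1, h2⟩, e⟩ := @bij.2.2 (x, fun z => Sum.elim (x (φ z.1)) (x (τ z.1)) z.2)
      ⟨⟨X.coc, X.out, X.lc, X.unr, by
        rintro (_ | i) g n
        exacts [(h0 g n.2).trans (zero_mulVec _).symm, ((c i).2 g n.2).trans
          (em_mv i _ fun z => Sum.elim (x (φ z.1)) (x (τ z.1)) z.2).symm]⟩,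
      (dg_mv _ _).2 fun i => (c i).1⟩
    exact ⟨y, ⟨h1, (k0 y).1 h2⟩, congrArg Prod.fst e⟩

namespace On

variable {T₀ : Finset ℕ} {q : ℕ} {c : GQ} {x : GQ → Fin 2 → R}

theorem unr (h2 : (pp : R) = 0) (G : Gd Γ T a) (o : Ov q P) (q2 : q ≠ pp) (le : dec P ≤ Γ)
    (a1 : ∀ g, Inert P g → a g = 1) (t : Gn q P τ) (X : Cc Γ T₀ a x) (e : x τ = 0) {h g : GQ}
    (m : h ∈ Γ) (hg : Inert (h • P) g) : x g = 0 := by
  have i : Inert P (h⁻¹ * g * h⁻¹⁻¹) := by simpa using GW.Pl.inert_conj hg h⁻¹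
  obtain ⟨W, hW, w⟩ := X.lc
  obtain ⟨j, k⟩ := X4F.Lt.lt1 o 1 q2 t i hW
  rw [show g = h * (h⁻¹ * g * h⁻¹⁻¹) * h⁻¹ by group, P004F.Ra.x_conj G.toGd X m (le (inP_le_dec i)) (a1 _ i),
    k _ x (X4F.Ra.two_smul_zero (R := R) (by rw [pow_one, h2])) (fun g _ n => w g n) fun g j p p' => by
      rw [X.coc g (le (inP_le_dec p)) j (le (inP_le_dec p')), a1 g p, P004F.Ra.ac_one], e, smul_zero,
    ac_zero]

theorem nt (od : (q : R) = 1) {A : M2 R} {u : R} (h : A - 1 = u • 1)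
    (y : Fin 2 ⊕ Fin 2 → R) : Nt A 1 q *ᵥ y = 0 ↔ ∀ i, u * y (.inr i) = 0 := by
  have : ∑ i ∈ Finset.range q, (1 : M2 R) ^ i = 1 := by
    simp only [one_pow, Finset.sum_const, Finset.card_range]
    rw [← Nat.cast_smul_eq_nsmul R, od, one_smul]
  rw [Nt, this, h, one_pow, sub_self, fromCols_mulVec, zero_mulVec, zero_add, smul_mulVec,
    one_mulVec, funext_iff]
  rfl

end On

open On in
/-- **step one** -/
theorem one0 (hp : PRESN) {J B e q : ℕ} [IsLocalRing (Rb J)] (π : Rb J →+* ZMod pp)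
    {Γ : Subgroup GQ} {T T₀ : Finset ℕ} {a : GQ → M2 (Rb J)} (G : Gd Γ T a) {P2 : Ideal (𝓞 Qb)}
    (o2 : Ov pp P2) (d2 : dec P2 ≤ Γ) {c : GQ} (hc : c ∉ Γ) (hq : q.Prime) (q2 : q ≠ pp)
    (q1 : (q : Rb J) = 1) (hT : ∀ l, l ∈ T ↔ l ∈ T₀ ∨ l = q) (n0 : q ∉ T₀) (le : ∀ P, Ov q P → dec P ≤ Γ)
    (a1 : ∀ P, Ov q P → ∀ g, Inert P g → a g = 1)
    (af : ∀ P, Ov q P → ∀ g, Fb q P g → ∃ ε, IsUnit ε ∧ a g - 1 = (ε * tt J ^ e) • 1)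
    (rel : ∃ s ∈ T₀, s ≠ pp ∧ ∃ Q, Ov s Q ∧ dec Q ≤ Γ ∧ ∀ g ∈ dec Q, (a g).map π = 1)
    (hB : B + 4 * e < J) :
    {x | Cc Γ T a x ∧ ∀ g ∈ dec P2, x g = (0 : Fin 2 → Rb J)}.Finite ∧
    (Nat.card {x | Cc Γ T₀ a x ∧ ∀ g ∈ dec P2, x g = (0 : Fin 2 → Rb J)} ≤ pp ^ B →
    Nat.card {x | Cc Γ T a x ∧ ∀ g ∈ dec P2, x g = (0 : Fin 2 → Rb J)} =
      Nat.card {x | Cc Γ T₀ a x ∧ ∀ g ∈ dec P2, x g = (0 : Fin 2 → Rb J)} * pp ^ (4 * e)) := by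
  have := fin J
  have h2 := two0 J
  obtain ⟨P0, o0⟩ := GW.Pl.ex_ov hq
  let P : Bool → Ideal (𝓞 Qb) := fun i => cond i (c • P0) P0
  have o : ∀ i, Ov q (P i) := by rintro (_ | _); exacts [o0, GW.ov_smul o0 c]
  choose φ hφ using fun i => P022D.W.exists_phi hq (o i).2.1 (o i).2.2
  choose τ hτ using fun i => ex_gn (o i) q2
  choose ε ε1 ε2 using fun i => af _ (o i) _ (hφ i)
  obtain ⟨g, r, Q, w, F, hc', bij, hw⟩ := gen hp π h2 G o2 d2 (fun _ => q) P φ τ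
    (fun _ => (hT q).2 (.inr rfl)) (fun i => ⟨q2, o i, hφ i, hτ i, le _ (o i), fun g m =>
      ⟨0, by rw [a1 _ (o i) g m, one_pow]⟩⟩)
    (by
      rintro (_ | _) (_ | _) g m e
      · rfl
      · exact (hc ((Γ.mul_mem_cancel_left (inv_mem m)).1 (le _ o0 ((GW.Pl.dec_iff _ _).2 (by
          rw [mul_smul, inv_smul_eq_iff]; exact e))))).elim
      · exact (hc ((Γ.mul_mem_cancel_left m).1 (le _ o0 ((GW.Pl.dec_iff _ _).2 (by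
          rw [mul_smul]; exact e.symm))))).elim
      · rfl)
    (by
      obtain ⟨s, s1, s2, Q, s3, s4, s5⟩ := rel
      exact ⟨s, (hT s).2 (.inl s1), s2, Q, s3, s4, s5, fun _ k => n0 (k ▸ s1)⟩)
  refine ⟨(Set.toFinite _).of_surjOn F bij.2.2, fun h => ?_⟩
  let W : Matrix (Bool × Fin 2) (Fin g) (Rb J) := .of fun i => w i.1 (.inr i.2)
  have k1 : ∀ y, (∀ i, (Nt (a (φ i)) (a (τ i)) q * w i) *ᵥ y = 0) ↔
      ∀ i : Bool × Fin 2, ε i.1 * tt J ^ e * (W *ᵥ y) i = 0 := fun y => by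
    rw [Prod.forall]
    refine forall_congr' fun i => ?_
    rw [← mulVec_mulVec, a1 _ (o i) _ (hτ i).1, nt q1 (ε2 i)]
    rfl
  have k2 : ∀ y, W *ᵥ y = 0 → ∀ i, (Nt (a (φ i)) (a (τ i)) q * w i) *ᵥ y = 0 := fun y k =>
    (k1 y).2 fun i => by rw [k, Pi.zero_apply, mul_zero]
  have b0 : Set.BijOn F {y | Q *ᵥ y = 0 ∧ W *ᵥ y = 0}
      {x | Cc Γ T₀ a x ∧ ∀ g ∈ dec P2, x g = (0 : Fin 2 → Rb J)} := by
    refine ⟨fun y ⟨y1, y2⟩ => ?_, bij.2.1.mono fun y m => And.intro m.1 (k2 y m.2), fun x ⟨X, x0⟩ => ?_⟩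
    · obtain ⟨X, x0⟩ := @bij.1 y ⟨y1, k2 y y2⟩
      refine ⟨⟨X.coc, X.out, X.lc, fun j ⟨l, n, P', o', i⟩ => ?_⟩, x0⟩
      by_cases k : l = q
      swap
      · exact X.unr j ⟨l, fun m => ((hT l).1 m).elim n k, P', o', i⟩
      have u := fun i => @unr _ _ _ _ _ _ _ _ _ _ _ h2 G (o i) q2 (le _ (o i)) (a1 _ (o i)) (hτ i) X
        (funext fun s => (congrFun (hw y y1 (k2 y y2) i) (.inr s)).symm.trans (congrFun y2 (i, s)))
      obtain ⟨t, rfl⟩ := GW.Pl.ov_trans o0 (k ▸ o')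
      by_cases m : t ∈ Γ
      · exact u false m i
      · exact u true (P004F.Ra.mul_out G.toGd m (h := c⁻¹) (by simpa using hc))
          (show Inert ((t * c⁻¹) • c • P0) j by rwa [mul_smul, inv_smul_smul])
    · obtain ⟨y, ⟨y1, y2⟩, rfl⟩ := @bij.2.2 x ⟨⟨X.coc, X.out, X.lc,
        fun j ⟨l, n, i⟩ => X.unr j ⟨l, fun m => n ((hT l).2 (.inl m)), i⟩⟩, x0⟩
      exact ⟨y, ⟨y1, funext fun i => (congrFun (hw y y1 y2 i.1) (.inr i.2)).trans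
        (congrFun (X.unr _ ⟨q, n0, _, o i.1, (hτ i.1).1⟩) i.2)⟩, rfl⟩
  rw [← Nat.card_congr b0.equiv] at h ⊢
  rw [← Nat.card_congr bij.equiv]
  refine (Nat.card_congr (Equiv.subtypeEquivRight fun y => and_congr_right fun _ =>
    (k1 y).trans ?_)).trans (stp1 Q W (diagonal fun i => ε i.1 * tt J ^ e) (by simpa using hc')
      ⟨_, ((ε1 true).mul (ε1 false)).pow 2, ?_⟩ hB h)
  · simp only [← mulVec_mulVec, funext_iff, mulVec_diagonal, Pi.zero_apply]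
  simp only [det_diagonal, Fintype.prod_prod_type, Fintype.prod_bool, Fin.prod_univ_two]
  ring

end Vale.Agent.P014Y.F.Cn
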